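import Vale.Agent.P028.Main

open MeasureTheory

theorem Vale.Agent.Results.P028.ExtraDivergence.result :
    (∀ (γ ε : ℝ) (ψ : ℕ → ℝ), Irrational γ → ¬ Liouville γ → 0 < ε → (∀ q, 0 ≤ ψ q) →
      ¬ Summable (fun q : ℕ => (Nat.totient q : ℝ) / q * ψ q / Real.log q ^ ε) →
      ∀ᵐ x : ℝ, {q : ℕ | 0 < q ∧ |q * x - γ - round (q * x - γ)| < ψ q}.Infinite) ∧
    (∀ (γ : ℕ → ℝ) (ε : ℝ) (ψ : ℕ → ℝ), 0 < ε → (∀ q, 0 ≤ ψ q) →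
      ¬ Summable (fun q : ℕ => (Nat.totient q : ℝ) / q * ψ q ^ (1 + ε)) →
      ∀ᵐ x : ℝ, {q : ℕ | 0 < q ∧ |q * x - γ q - round (q * x - γ q)| < ψ q}.Infinite) :=
  ⟨fun _ _ ψ h1 h2 hε h0 h => Vale.Agent.P028.thmA h1 h2 hε ψ h0 h,
    fun γ _ ψ hε h0 h => Vale.Agent.P028.thmB γ hε ψ h0 h⟩
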